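import Vale.Agent.P007X.All
import Vale.Agent.P007X.Tb
import Vale.Agent.P007X.LinG
import Vale.Agent.P007X.Lin

open MeasureTheory NumberField Filter Topology

namespace Vale.Agent.Results.P007.AllSequences

open Vale.Agent.P007.F

/-- **For which sequences the packets become equidistributed: the complete answer in every degree
`n ≥ 3`.** For an arbitrary sequence of orders in totally real fields of degree `n`, the packet
measures converge weakly to the invariant probability if and only if the elements of the orders
outside `ℤ` have larger and larger conjugates; equivalently, if and only if the discriminants tend to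
infinity and every irreducible monic integral polynomial of degree `d`, `1 < d < n`, has roots in
finitely many of the orders only. -/
theorem result (n : ℕ) (hn : 3 ≤ n) (K : ℕ → Type) [∀ i, Field (K i)] [∀ i, NumberField (K i)]
    (O : ∀ i, Subring (𝓞 (K i))) (σ : ∀ i, Fin n ≃ (K i →+* ℝ)) (μ : ℕ → Measure (X n))
    (m : Measure (X n)) (h : ∀ i, PacketMeas (K i) (O i) (σ i) (μ i)) (hm : IsInvProb m) :
    (WeakTo μ m ↔
      ∀ B : ℝ, ∀ᶠ i in atTop, ∀ a ∈ O i, (∀ j, |σ i j a| ≤ B) → ∃ z : ℤ, a = z) ∧
    (WeakTo μ m ↔ Tendsto (fun i => disc (K i) (O i)) atTop atTop ∧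
      ∀ f : Polynomial ℤ, f.Monic → Irreducible f → 1 < f.natDegree → f.natDegree < n →
        ∀ᶠ i in atTop, ∀ a ∈ O i, Polynomial.aeval a f ≠ 0) :=
  Vale.Agent.P007X.all_of hn (Vale.Agent.P007X.sTube n)
    (Vale.Agent.P007X.sLinG hn (Vale.Agent.P007X.sLin n)) h hm

end Vale.Agent.Results.P007.AllSequences
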